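import Vale.Agent.P088.R2.H455.S4.SpecB
import Vale.Agent.P088.R2.H871.Q.Fm

/-!
# P088, stage 4, row QMWN: statement of the corrector part
-/

open MeasureTheory Set
open scoped ContDiff Matrix NNReal

noncomputable section

namespace Vale.Agent.P088.S4.H871

open Vale.Agent.P088.LR Vale.Agent.P088.LR.U Vale.Agent.P088.LR.H158
open Vale.Agent.P088.HY (VV)
open Vale.Agent.P088.PJ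

/-- The correctors on `O`, with weighted jets on `O1`. -/
def CorrN : Prop := ∀ n N : ℕ, 3 ≤ n → 1 ≤ N → ∃ (K m : ℕ) (C ε : ℝ), 1 ≤ C ∧ 0 < ε ∧
  ∀ (O O1 Kc : Set (V n)), IsOpen O → IsOpen O1 → ∀ r : ℝ, 0 < r → r ≤ 1 →
  (∀ x ∈ O1, Metric.ball x r ⊆ O) → ∀ v : ℝ, 0 ≤ v → volume O ≤ ENNReal.ofReal (v ^ 2) →
  ∀ t : ℝ, 2 ≤ t → (∀ x ∈ O, ‖x‖ ≤ t) →
  ∀ d : PD n N, RLP K ε O Kc d → ∀ (g : V n → ℝ) (Λ : ℝ), ContinuousOn g O → 1 ≤ Λ →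
  HY.S3.LG O1 r Λ g → ∀ ρ : ℝ, 1 ≤ ρ → SlR O d.s₂ (b2 d) g ρ 1 →
  ∀ (k2 : Fin n → Fin n → MC n N) (M : ℝ), 0 ≤ M → Tk d.s₁ k2 →
  (∀ i j a b, ∀ l ≤ K, ∀ x ∈ O,
    ‖iteratedFDeriv ℝ l (fun y => k2 i j y a b) x‖ ≤ M * Real.exp (ρ * g x)) →
  ∃ (W : Fin n → MC n N) (W0 : MC n N),
  (∀ a i j, ContDiffOn ℝ ∞ (fun x => W a x i j) O) ∧
  (∀ i j, ContDiffOn ℝ ∞ (fun x => W0 x i j) O) ∧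
  (∀ a, ∀ x ∈ O, Rv d.s₂ (bR d.s₂ d.P₂ d.G₂) (W a) x =
    Fa d.s₁ d.s₂ d.τ d.P₂ d.G₂ d.β d.Γ k2 a x) ∧
  (∀ x ∈ O, Rv d.s₂ (bR d.s₂ d.P₂ d.G₂) W0 x =
    F0 d.s₁ d.s₂ d.τ d.P₂ d.G₂ d.β d.Y d.Γ k2 x) ∧
  (∀ a i j, ∀ l ≤ 2, ∀ x ∈ O1, ‖iteratedFDeriv ℝ l (fun y => W a y i j) x‖ ≤
    C * (t * ρ * Λ / r * (v + 1)) ^ m * M * Real.exp (ρ * g x)) ∧
  (∀ i j, ∀ l ≤ 2, ∀ x ∈ O1, ‖iteratedFDeriv ℝ l (fun y => W0 y i j) x‖ ≤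
    C * (t * ρ * Λ / r * (v + 1)) ^ m * M * Real.exp (ρ * g x))

end Vale.Agent.P088.S4.H871
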