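import Vale.Agent.P088.R2.H871.Q.RowQ
import Vale.Agent.P088.R2.H338.I.Cor
import Vale.Agent.P088.R2.H858.XKL
import Vale.Agent.P088.R2.H808.S4.Pi

/-!
# P088, stage 4, row QMWN: closed form
-/

noncomputable section

namespace Vale.Agent.P088.S4

/-- **QMWN**. -/
theorem rowQMWN : RowQMWN :=
  rowQMWN_of Vale.Agent.P088.R2.H338.I.corrN H858.rowXKL H808.rowXPI

end Vale.Agent.P088.S4
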