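import Vale.Agent.P088.R2.H871.Q.StA
import Vale.Agent.P088.R2.H871.Q.Mk
import Vale.Agent.P088.R2.H871.Q.Bj
import Vale.Agent.P088.R2.H871.Q.Cut

/-!
# P088, stage 4, row QMWN
-/

open MeasureTheory Set Filter
open scoped ContDiff Matrix NNReal Topology

noncomputable section

namespace Vale.Agent.P088.S4.H871

open Vale.Agent.P088.LR Vale.Agent.P088.LR.U Vale.Agent.P088.LR.H158
open Vale.Agent.P088.HY (VV)
open Vale.Agent.P088.PJ
open Vale.Agent.P088.PJ.H696 (Bd BM CB)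

variable {n N : ℕ}

/-- The projections of the support of the cut-off. -/
def Sp (η : VV n → ℝ) : Set (V n) := Prod.fst '' tsupport η ∪ Prod.snd '' tsupport η

theorem ts_compact {η : VV n → ℝ} {O O1 : Set (V n)} (hs : tsupport η ⊆ O1 ×ˢ O1) (h1 : O1 ⊆ O)
    {t : ℝ} (ht : ∀ x ∈ O, ‖x‖ ≤ t) : IsCompact (tsupport η) := by
  refine Metric.isCompact_of_isClosed_isBounded (isClosed_tsupport η) ?_
  refine (Metric.isBounded_closedBall (x := (0 : VV n)) (r := t)).subset fun z hz => ?_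
  rw [mem_closedBall_zero_iff, Prod.norm_def, max_le_iff]
  exact ⟨ht _ (h1 (hs hz).1), ht _ (h1 (hs hz).2)⟩

theorem Sp_compact {η : VV n → ℝ} (h : IsCompact (tsupport η)) : IsCompact (Sp η) :=
  (h.image continuous_fst).union (h.image continuous_snd)

theorem Sp_sub {η : VV n → ℝ} {O1 : Set (V n)} (hs : tsupport η ⊆ O1 ×ˢ O1) : Sp η ⊆ O1 := by
  rintro x (⟨z, hz, rfl⟩ | ⟨z, hz, rfl⟩)
  · exact (hs hz).1
  · exact (hs hz).2

/-- Cut-off and congruence of the kernels. -/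
theorem dxk_loc {K L : KC n N} {z : VV n} (h : K =ᶠ[𝓝 z] L) (i : Fin n) :
    dxk i K =ᶠ[𝓝 z] dxk i L := by
  filter_upwards [h.eventuallyEq_nhds] with w hw
  ext a b
  have h1 : (fun z => K z a b) =ᶠ[𝓝 w] fun z => L z a b := by
    filter_upwards [hw] with y hy
    rw [hy]
  show fderiv ℝ (fun z => K z a b) w _ = fderiv ℝ (fun z => L z a b) w _
  rw [h1.fderiv_eq]

theorem dyk_loc {K L : KC n N} {z : VV n} (h : K =ᶠ[𝓝 z] L) (i : Fin n) :
    dyk i K =ᶠ[𝓝 z] dyk i L := by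
  filter_upwards [h.eventuallyEq_nhds] with w hw
  ext a b
  have h1 : (fun z => K z a b) =ᶠ[𝓝 w] fun z => L z a b := by
    filter_upwards [hw] with y hy
    rw [hy]
  show fderiv ℝ (fun z => K z a b) w _ = fderiv ℝ (fun z => L z a b) w _
  rw [h1.fderiv_eq]

theorem dgD_loc (d : PD n N) {K L : KC n N} {p : V n} (h : K =ᶠ[𝓝 ((p, p) : VV n)] L) :
    dgD d K p = dgD d L p := by
  unfold dgD dgB
  refine congrArg₂ _ (Finset.sum_congr rfl fun i _ => Finset.sum_congr rfl fun j _ => ?_)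
    (Finset.sum_congr rfl fun i _ => ?_)
  · rw [(dxk_loc (dyk_loc h j) i).eq_of_nhds]
  · rw [(dxk_loc h i).eq_of_nhds]

/-- first derivatives of the entries -/
theorem dxk_le {K : KC n N} {z : VV n} {B : ℝ}
    (h : ∀ l ≤ 2, ∀ a b, ‖iteratedFDeriv ℝ l (fun z => K z a b) z‖ ≤ B) (i : Fin n) (a b : Fin N) :
    ‖dxk i K z a b‖ ≤ B ∧ ‖dyk i K z a b‖ ≤ B := by
  have h1 : ‖fderiv ℝ (fun z => K z a b) z‖ ≤ B := by
    rw [← norm_iteratedFDeriv_one]
    exact h 1 (by norm_num) a b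
  constructor
  · refine ((fderiv ℝ (fun z => K z a b) z).le_opNorm _).trans ?_
    calc _ ≤ ‖fderiv ℝ (fun z => K z a b) z‖ * 1 :=
          mul_le_mul_of_nonneg_left (ex_norm i) (norm_nonneg _)
      _ ≤ B := by rw [mul_one]; exact h1
  · refine ((fderiv ℝ (fun z => K z a b) z).le_opNorm _).trans ?_
    calc _ ≤ ‖fderiv ℝ (fun z => K z a b) z‖ * 1 :=
          mul_le_mul_of_nonneg_left (ey_norm i) (norm_nonneg _)
      _ ≤ B := by rw [mul_one]; exact h1

/-- The residuals of the cut-off kernel. -/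
theorem resid {O : Set (V n)} {η : VV n → ℝ} (hη : ContDiff ℝ ∞ η) (hs : tsupport η ⊆ O ×ˢ O)
    {b : ℝ} (hb : ∀ l ≤ 2, ∀ z, ‖iteratedFDeriv ℝ l η z‖ ≤ b) {K : KC n N} (hK : SmK univ K)
    {B : VV n → ℝ} (hB : ∀ z ∈ tsupport η, ∀ l ≤ 2, ∀ a b,
      ‖iteratedFDeriv ℝ l (fun z => K z a b) z‖ ≤ B z)
    {s₁ s₂ : MF n} {β b₂ : Fin n → MC n N} (hs₁ : ∀ x i j, |s₁ x i j| ≤ 2)
    (hs₂ : ∀ x i j, |s₂ x i j| ≤ 2) (hβ : ∀ i x a b, ‖β i x a b‖ ≤ 1)
    (hb₂ : ∀ i x a b, ‖b₂ i x a b‖ ≤ 1) {F G : KC n N} (hF : ∀ z ∈ O ×ˢ O, Lk s₁ β K z = F z)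
    (hG : ∀ z ∈ O ×ˢ O, Rk s₂ b₂ K z = G z) (z : VV n) (a' b' : Fin N) :
    ‖(Lk s₁ β (ck η K) z - (η z : ℂ) • F z) a' b'‖ ≤
      (tsupport (fderiv ℝ η)).indicator (fun z => (6 * n ^ 2 + n * N) * (b * B z)) z ∧
    ‖(Rk s₂ b₂ (ck η K) z - (η z : ℂ) • G z) a' b'‖ ≤
      (tsupport (fderiv ℝ η)).indicator (fun z => (6 * n ^ 2 + n * N) * (b * B z)) z := by
  have hb0 : 0 ≤ b := (norm_nonneg _).trans (hb 0 (by norm_num) 0)
  by_cases hz : z ∈ tsupport (fderiv ℝ η)
  · have hz' : z ∈ tsupport η := tsupport_fderiv_subset ℝ hz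
    have hzO := hs hz'
    have hBz : 0 ≤ B z := (norm_nonneg _).trans (hB z hz' 0 (by norm_num) a' b')
    have h0 : ∀ a b, ‖K z a b‖ ≤ B z := fun a b => by
      have := hB z hz' 0 (by norm_num) a b
      rwa [norm_iteratedFDeriv_zero] at this
    have hd := fun i a b => dxk_le (hB z hz') i a b
    have e1 : ∀ v : VV n, ‖v‖ ≤ 1 → ‖d1' η v z‖ ≤ b := fun v hv =>
      d1_bd hη (hb 1 (by norm_num) z) hv
    have e2 : ∀ v w : VV n, ‖v‖ ≤ 1 → ‖w‖ ≤ 1 → ‖d2' η v w z‖ ≤ b := fun v w hv hw =>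
      d2_bd hη (hb 2 le_rfl z) hv hw
    rw [indicator_of_mem hz]
    constructor
    · rw [Lk_ck hη hK, hF z hzO, add_sub_cancel_left]
      exact (com_le hb0 hBz (e2 := fun i j => d2' η (PJ.H359.ex i) (PJ.H359.ex j) z)
        (e1 := fun i => d1' η (PJ.H359.ex i) z) (A := K z) (A' := fun i => dxk i K z)
        (fun i j => hs₁ z.1 i j) (fun i a b => hβ i z.1 a b)
        (fun i j => e2 _ _ (ex_norm i) (ex_norm j)) (fun i => e1 _ (ex_norm i)) h0
        (fun i a b => (hd i a b).1) a' b').1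
    · rw [Rk_ck hη hK, hG z hzO, add_sub_cancel_left]
      exact (com_le hb0 hBz (e2 := fun i j => d2' η (PJ.H359.ey i) (PJ.H359.ey j) z)
        (e1 := fun i => d1' η (PJ.H359.ey i) z) (A := K z) (A' := fun i => dyk i K z)
        (fun i j => hs₂ z.2 i j) (fun i a b => hb₂ i z.2 a b)
        (fun i j => e2 _ _ (ey_norm i) (ey_norm j)) (fun i => e1 _ (ey_norm i)) h0
        (fun i a b => (hd i a b).2) a' b').2
  · have h1 : ∀ v : VV n, d1' η v z = 0 := fun v => (d1_zero hη hz v).eq_of_nhds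
    have h2 : ∀ v w : VV n, d2' η v w z = 0 := fun v w => d2_zero hη hz v w
    rw [indicator_of_notMem hz, Lk_ck hη hK, Rk_ck hη hK]
    simp only [h1, h2, zero_smul, add_zero, smul_zero, Finset.sum_const_zero, mul_zero, zero_mul]
    by_cases hzO : z ∈ O ×ˢ O
    · rw [hF z hzO, hG z hzO, sub_self, sub_self, Matrix.zero_apply, norm_zero]
      exact ⟨le_rfl, le_rfl⟩
    · have h3 : η z = 0 := image_eq_zero_of_notMem_tsupport fun h => hzO (hs h)
      rw [h3]
      simp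

theorem U1_eq (d : PD n N) (x : V n) : U1 d x = U1' d.s₁ d.s₂ d.P₁ d.P₂ d.D x := rfl

theorem U1_cont {k : ℕ} {δ : ℝ} {O Kc : Set (V n)} {d : PD n N} (h : RLP k δ O Kc d) :
    Continuous (U1 d) := by
  have c1 : ∀ i j, Continuous fun x => d.s₂ x i j - d.s₁ x i j := fun i j =>
    (h.rl.d₂.ss i j).continuous.sub (h.rl.d₁.ss i j).continuous
  have c2 : ∀ a b, Continuous fun x => d.P₂ x a b - d.P₁ x a b := fun a b =>
    (h.rl.d₂.sP a b).continuous.sub (h.rl.d₁.sP a b).continuous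
  have c3 : ∀ c a b, Continuous fun x => d.D c x a b := fun c a b => (h.rl.sD c a b).continuous
  have c4 : ∀ i c a b, Continuous fun x => pdm i (d.D c) x a b := fun i c a b =>
    (sm_pdm (h.rl.sD c) i a b).continuous
  unfold U1
  refine Continuous.add (Continuous.add ?_ ?_) ?_
  · exact continuous_finsetSum _ fun i _ => continuous_finsetSum _ fun j _ => (c1 i j).abs
  · exact continuous_finsetSum _ fun i _ => continuous_finsetSum _ fun j _ => (c2 i j).norm
  · exact continuous_finsetSum _ fun c _ => continuous_finsetSum _ fun a _ =>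
      continuous_finsetSum _ fun b _ => (c3 c a b).norm.add
        (continuous_finsetSum _ fun i _ => (c4 i c a b).norm)

/-- Bound of the integral of the boundary terms. -/
theorem bdry {O : Set (V n)} (hO : IsOpen O) {χ : V n → ℝ} (hχ : ContDiff ℝ ∞ χ)
    (hc : HasCompactSupport χ) (hs : tsupport χ ⊆ O) {E : V n → ℝ} (hE : ContinuousOn E O)
    {A : ℝ} {Bf : Fin n → V n → ℂ} (hB : ∀ j, ∀ p ∈ tsupport χ, ‖Bf j p‖ ≤ A * E p) :
    ‖∫ p, ∑ j, ((pd j χ p : ℝ) : ℂ) * Bf j p‖ ≤ A * ∫ p, ∑ i, |pd i χ p| * E p := by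
  have hts : ∀ i, tsupport (pd i χ) ⊆ tsupport χ := fun i => tsupport_fderiv_apply_subset ℝ _
  have hcs : ∀ i, HasCompactSupport (pd i χ) := fun i => hc.mono' (subset_closure.trans (hts i))
  have hcd : ∀ i, Continuous (pd i χ) := fun i =>
    ((hχ.fderiv_right (m := ∞) (by simp)).clm_apply contDiff_const).continuous
  have hg : ∀ i, Integrable (fun p => |pd i χ p| * E p) := by
    intro i
    have h2 : Continuous (fun p => |pd i χ p| * E p) := by
      rw [continuous_iff_continuousAt]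
      intro z
      by_cases hz : z ∈ O
      · exact ((hcd i).abs.continuousAt).mul (hE.continuousAt (hO.mem_nhds hz))
      · have hz' : z ∉ tsupport (pd i χ) := fun h => hz (hs (hts i h))
        have h3 : (fun p => |pd i χ p| * E p) =ᶠ[𝓝 z] fun _ => 0 := by
          filter_upwards [notMem_tsupport_iff_eventuallyEq.mp hz'] with y hy
          rw [hy]; simp
        exact (continuousAt_const).congr h3.symm
    refine h2.integrable_of_hasCompactSupport ?_
    exact (hcs i).mono fun p hp => by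
      rw [Function.mem_support] at hp ⊢
      intro h0
      exact hp (by rw [h0]; simp)
  rw [← integral_const_mul]
  refine norm_integral_le_of_norm_le ((integrable_finsetSum _ fun i _ => hg i).const_mul _)
    (ae_of_all _ fun p => ?_)
  rw [Finset.mul_sum]
  refine (norm_sum_le _ _).trans (Finset.sum_le_sum fun j _ => ?_)
  rw [norm_mul, Complex.norm_real, Real.norm_eq_abs]
  by_cases hp : p ∈ tsupport χ
  · calc |pd j χ p| * ‖Bf j p‖ ≤ |pd j χ p| * (A * E p) :=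
          mul_le_mul_of_nonneg_left (hB j p hp) (abs_nonneg _)
      _ = _ := by ring
  · have hp' : pd j χ p = 0 := image_eq_zero_of_notMem_tsupport fun h => hp (hts j h)
    rw [hp']; simp

end Vale.Agent.P088.S4.H871
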