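import Vale.Agent.P088.R2.H871.Q.Row

/-!
# P088, stage 4, row QMWN: the row
-/

open MeasureTheory Set Filter
open scoped ContDiff Matrix NNReal Topology

noncomputable section

namespace Vale.Agent.P088.S4

open Vale.Agent.P088.LR Vale.Agent.P088.LR.U Vale.Agent.P088.LR.H158
open Vale.Agent.P088.HY (VV)
open Vale.Agent.P088.PJ
open Vale.Agent.P088.PJ.H696 (Bd BM CB)
open Vale.Agent.P088.S4.H871

/-- **QMWN** from the correctors, (KL) and (PI). -/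
theorem rowQMWN_of (hC : CorrN) (hKL : RowXKL) (hPI : RowXPI) : RowQMWN := by
  intro n N hn hN
  obtain ⟨K₃, m₃, C₃, ε₃, hC₃, hε₃, HC⟩ := hC n N hn hN
  obtain ⟨k₁, δ₁, hδ₁, HKL⟩ := hKL n N
  obtain ⟨k₂, δ₂, hδ₂, HPI⟩ := hPI n N
  obtain ⟨C₄, δ₄, hC₄, hδ₄, hδ₄', HH⟩ := mkHy n N 0
  have hC₄0 : 0 < C₄ := by linarith
  obtain ⟨ε, hε0, hε1, hε2, hε3, hε4, hε5⟩ : ∃ ε : ℝ, 0 < ε ∧ ε ≤ δ₁ ∧ ε ≤ δ₂ ∧ ε ≤ ε₃ ∧ ε ≤ δ₄ ∧
      C₄ * ε ≤ 1 := by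
    refine ⟨min (min δ₁ δ₂) (min ε₃ (min δ₄ (1 / C₄))), by positivity,
      (min_le_left _ _).trans (min_le_left _ _), (min_le_left _ _).trans (min_le_right _ _),
      (min_le_right _ _).trans (min_le_left _ _),
      (min_le_right _ _).trans ((min_le_right _ _).trans (min_le_left _ _)), ?_⟩
    have h1 : min (min δ₁ δ₂) (min ε₃ (min δ₄ (1 / C₄))) ≤ 1 / C₄ :=
      (min_le_right _ _).trans ((min_le_right _ _).trans (min_le_right _ _))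
    calc C₄ * _ ≤ C₄ * (1 / C₄) := mul_le_mul_of_nonneg_left h1 hC₄0.le
      _ = 1 := by field_simp
  obtain ⟨K, hK1, hK2, hK3, hK4⟩ : ∃ K : ℕ, k₁ ≤ K ∧ k₂ ≤ K ∧ K₃ ≤ K ∧ 3 ≤ K :=
    ⟨k₁ + k₂ + K₃ + 3, by omega, by omega, by omega, by omega⟩
  have H : Hy n N K 0 2 C₄ ε := HH ε hε0.le hε4 K hK4
  obtain ⟨A₁, hA₁, HA₁⟩ := (um_Kq H).bd
  have hBj : ∀ j, ∃ A : ℝ, 0 ≤ A ∧ ∀ p : Qk n N K ε, ‖Bj p.q.c.s₁ p.q.c.s₂ p.q.c.P₁ p.q.c.P₂
      p.q.c.G₂ p.q.c.Y p.q.c.D p.q.c.Γ p.q.c.k2 p.W j (yk p)‖ ≤ A * (p.q.T * (Uk p * p.q.c.B)) := by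
    intro j
    obtain ⟨A, hA, h⟩ := uo_Bj H j
    refine ⟨A, hA, fun p => ?_⟩
    have := (h p).2 0 le_rfl
    rw [norm_iteratedFDeriv_zero] at this
    simpa using this
  choose A₂' hA₂' HA₂' using hBj
  set A₂ : ℝ := ∑ j, A₂' j with hA₂
  have hA₂0 : 0 ≤ A₂ := Finset.sum_nonneg fun j _ => hA₂' j
  have hn0 : (0 : ℝ) ≤ 6 * n ^ 2 + n * N := by positivity
  set C : ℝ := C₃ * (1 + A₁ + (6 * n ^ 2 + n * N) * A₁ + A₂) with hCdef
  have hC₃0 : 0 ≤ C₃ := by linarith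
  have hC1 : 1 ≤ C := by
    have : 1 ≤ 1 + A₁ + (6 * n ^ 2 + n * N) * A₁ + A₂ := by
      have := mul_nonneg hn0 hA₁
      linarith
    exact one_le_mul_of_one_le_of_one_le hC₃ this
  refine ⟨K, m₃ + 3, C, ε, hC1, hε0, ?_⟩
  intro O O1 Kc hO hO1 r hr hr1 hOO v hv hvol t ht htO d hd g Λ hg hΛ hLG ρ hρ hSl k2 M hM tk hk2
    η b hη hηs hb
  obtain ⟨W, W0, sW, s0, eW, e0, bW, b0⟩ := HC O O1 Kc hO hO1 r hr hr1 hOO v hv hvol t ht htO d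
    (rlp_mono hK3 hε3 Subset.rfl hO hd) g Λ hg hΛ hLG ρ hρ hSl k2 M hM tk
    (fun i j a b l hl => hk2 i j a b l (hl.trans hK3))
  have hsub : O1 ⊆ O := fun x hx => hOO x hx (Metric.mem_ball_self hr)
  have hcomp : IsCompact (tsupport η) := ts_compact hηs hsub htO
  obtain ⟨O', hO', hSO, hOs, hext⟩ := ext_loc (N := N) (Sp_compact hcomp).isClosed hO1 (Sp_sub hηs)
  choose W' sW' eW' using fun a => hext (W a) (fun i j => (sW a i j).mono hsub)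
  obtain ⟨W0', s0', e0'⟩ := hext W0 (fun i j => (s0 i j).mono hsub)
  have hOs' : O' ⊆ O := hOs.trans hsub
  have hd' : RLP K ε O' Kc d := rlp_mono le_rfl le_rfl hOs' hO' hd
  -- the equations of the correctors
  have hck : Ck O' d.s₁ d.s₂ d.τ d.P₂ d.G₂ d.β d.Y d.Γ k2 W' W0' := by
    refine ⟨sW', s0', fun a x hx => ?_, fun x hx => ?_⟩
    · rw [Rv_loc hO' (eW' a) hx]
      exact eW a x (hOs' hx)
    · rw [Rv_loc hO' e0' hx]
      exact e0 x (hOs' hx)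
  obtain ⟨hKs, hx, hy⟩ := HKL O' Kc d.j₀ d.s₁ d.s₂ d.P₁ d.P₂ d.G₁ d.G₂ d.β d.Y d.D
    (rl_mono hK1 hε1 Subset.rfl hO' hd'.rl) d.Γ (ig_mono hK1 hε1 hd.ig) d.τ hd.st hd.it k2 tk
    W' W0' hck
  have hPI' := HPI O' Kc d.j₀ d.s₁ d.s₂ d.P₁ d.P₂ d.G₁ d.G₂ d.β d.Y d.D
    (rl_mono hK2 hε2 Subset.rfl hO' hd'.rl) d.Γ (ig_mono hK2 hε2 hd.ig) d.τ hd.st hd.it k2 tk
    W' W0' hck
  set Kk : KC n N := Kq d.s₁ d.τ d.β d.Y k2 W' W0' with hKk
  -- numbers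
  set X : ℝ := t * ρ * Λ / r * (v + 1) with hX
  have ht0 : 0 < t := by linarith
  have hρΛ : 1 ≤ ρ * Λ := one_le_mul_of_one_le_of_one_le hρ hΛ
  have hY1 : 1 ≤ ρ * Λ / r * (v + 1) := by
    refine one_le_mul_of_one_le_of_one_le ?_ (by linarith)
    rw [le_div_iff₀ hr]
    linarith
  have htX : t ≤ X := by
    have : X = t * (ρ * Λ / r * (v + 1)) := by rw [hX]; ring
    rw [this]
    exact le_mul_of_one_le_right ht0.le hY1
  have hX1 : 1 ≤ X := by linarith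
  have hX0 : 0 ≤ X := by linarith
  set Bf : V n → ℝ := fun x => C₃ * X ^ m₃ * M * Real.exp (ρ * g x) with hBf
  have hBf0 : ∀ x, 0 ≤ Bf x := fun x => by
    have := Real.exp_pos (ρ * g x)
    positivity
  have hMB : ∀ x, M * Real.exp (ρ * g x) ≤ Bf x := fun x => by
    have h1 : 1 ≤ C₃ * X ^ m₃ := one_le_mul_of_one_le_of_one_le hC₃ (one_le_pow₀ hX1)
    have h2 : 0 ≤ M * Real.exp (ρ * g x) := mul_nonneg hM (Real.exp_pos _).le
    calc M * Real.exp (ρ * g x) ≤ (C₃ * X ^ m₃) * (M * Real.exp (ρ * g x)) :=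
          le_mul_of_one_le_left h2 h1
      _ = Bf x := by rw [hBf]; ring
  -- the family
  have hfam : ∀ x ∈ O', ∀ y ∈ O', ∃ p : Qk n N K ε, zk p = (x, y) ∧ yk p = y ∧
      Kq p.q.c.s₁ p.q.c.τ p.q.c.β p.q.c.Y p.q.c.k2 p.W p.W0 = Kk ∧ (p.q.T : ℝ) = t ∧
      (p.q.c.B : ℝ) = Bf y ∧ (Uk p : ℝ) = U1 d y ∧ ∀ j, Bj p.q.c.s₁ p.q.c.s₂ p.q.c.P₁ p.q.c.P₂
      p.q.c.G₂ p.q.c.Y p.q.c.D p.q.c.Γ p.q.c.k2 p.W j (yk p) =
        Bj d.s₁ d.s₂ d.P₁ d.P₂ d.G₂ d.Y d.D d.Γ k2 W' j y := by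
    intro x hx y hy
    refine ⟨⟨⟨⟨O', Kc, d.j₀, d.s₁, d.s₂, d.P₁, d.P₂, d.G₁, d.G₂, d.β, d.Y, d.D, hd'.rl, d.Γ,
      hd.ig, d.τ, hd.st, hd.it, k2, tk, (y, y), by simp, ⟨Bf y, hBf0 y⟩, ?_⟩,
      ⟨t, ht0.le⟩, ?_, htO y (hOs' hy)⟩, x, htO x (hOs' hx), W', W0', sW', s0', ?_, ?_⟩,
      rfl, rfl, rfl, rfl, rfl, rfl, fun j => rfl⟩
    · intro i j a b m hm
      exact (hk2 i j a b m (by omega) y (hOs' hy)).trans (hMB y)
    · show (1 : ℝ) ≤ t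
      linarith
    · intro c a b m hm
      show ‖iteratedFDeriv ℝ m (fun x => W' c x a b) y‖ ≤ Bf y
      rw [it_loc hO' (eW' c) hy]
      exact bW c a b m hm y (hOs hy)
    · intro a b m hm
      show ‖iteratedFDeriv ℝ m (fun x => W0' x a b) y‖ ≤ Bf y
      rw [it_loc hO' e0' hy]
      exact b0 a b m hm y (hOs hy)
  have hηO : tsupport η ⊆ O' ×ˢ O' := fun z hz =>
    ⟨hSO (Or.inl ⟨z, hz, rfl⟩), hSO (Or.inr ⟨z, hz, rfl⟩)⟩
  have hKb : ∀ z ∈ tsupport η, ∀ l ≤ 2, ∀ a b,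
      ‖iteratedFDeriv ℝ l (fun z => Kk z a b) z‖ ≤ A₁ * (t ^ 3 * Bf z.2) := by
    intro z hz l hl a b
    obtain ⟨p, hp1, -, hp3, hp4, hp5, -⟩ := hfam z.1 (hηO hz).1 z.2 (hηO hz).2
    have h1 := HA₁ p a b l hl
    rw [hp1, hp3] at h1
    refine h1.trans (le_of_eq ?_)
    push_cast
    rw [hp4, hp5]
  have hBjb : ∀ j, ∀ p ∈ O', ‖Bj d.s₁ d.s₂ d.P₁ d.P₂ d.G₂ d.Y d.D d.Γ k2 W' j p‖ ≤
      A₂ * (t * (U1 d p * Bf p)) := by
    intro j y hy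
    obtain ⟨p, -, hp2, -, hp4, hp5, hp6, hp7⟩ := hfam y hy y hy
    have h1 := HA₂' j p
    rw [hp7 j, hp4, hp5, hp6] at h1
    refine h1.trans (mul_le_mul_of_nonneg_right ?_ ?_)
    · exact Finset.single_le_sum (f := fun j => A₂' j) (fun j _ => hA₂' j) (Finset.mem_univ j)
    · have : 0 ≤ U1 d y := U1_nonneg _ _ _ _ _ _
      have := hBf0 y
      positivity
  -- the comparison of the constants
  have hcmp : ∀ (A : ℝ), 0 ≤ A → A ≤ 1 + A₁ + (6 * n ^ 2 + n * N) * A₁ + A₂ → ∀ x,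
      A * (t ^ 3 * Bf x) ≤ C * X ^ (m₃ + 3) * M * Real.exp (ρ * g x) := by
    intro A hA0 hA x
    have h1 : t ^ 3 ≤ X ^ 3 := pow_le_pow_left₀ ht0.le htX 3
    have h2 := Real.exp_pos (ρ * g x)
    have h3 : 0 ≤ C₃ * X ^ m₃ * M * Real.exp (ρ * g x) := hBf0 x
    calc A * (t ^ 3 * Bf x) ≤ (1 + A₁ + (6 * n ^ 2 + n * N) * A₁ + A₂) * (X ^ 3 * Bf x) := by
          refine mul_le_mul hA (mul_le_mul_of_nonneg_right h1 (hBf0 x))
            (mul_nonneg (by positivity) (hBf0 x)) (hA0.trans hA)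
      _ = C * X ^ (m₃ + 3) * M * Real.exp (ρ * g x) := by
          rw [hCdef, hBf]
          ring
  have hexp : ∀ x, 0 ≤ Real.exp (ρ * g x) := fun x => (Real.exp_pos _).le
  have hCX : 0 ≤ C * X ^ (m₃ + 3) * M := by positivity
  have hle1 : A₁ ≤ 1 + A₁ + (6 * n ^ 2 + n * N) * A₁ + A₂ := by
    have := mul_nonneg hn0 hA₁
    linarith
  have hle2 : (6 * n ^ 2 + n * N) * A₁ ≤ 1 + A₁ + (6 * n ^ 2 + n * N) * A₁ + A₂ := by
    linarith
  have hle3 : A₂ ≤ 1 + A₁ + (6 * n ^ 2 + n * N) * A₁ + A₂ := by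
    have := mul_nonneg hn0 hA₁
    linarith
  have hb0 : 0 ≤ b := (norm_nonneg _).trans (hb 0 (by norm_num) 0)
  -- bounds of the coefficients
  have hs1 : ∀ s : MF n, (∀ i j, Cl K ε (fun x => s x i j - (1 : Matrix (Fin n) (Fin n) ℝ) i j)) →
      ∀ x i j, |s x i j| ≤ 2 := by
    intro s hs x i j
    have h1 := hs i j 0 (Nat.zero_le _) x
    rw [norm_iteratedFDeriv_zero, Real.norm_eq_abs] at h1
    have h2 : |(1 : Matrix (Fin n) (Fin n) ℝ) i j| ≤ 1 := by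
      rcases eq_or_ne i j with rfl | hij
      · simp
      · simp [Matrix.one_apply_ne hij]
    have h3 : ε ≤ 1 := hε4.trans hδ₄'
    have h4 := abs_sub_abs_le_abs_sub (s x i j) ((1 : Matrix (Fin n) (Fin n) ℝ) i j)
    linarith
  have hβ : ∀ i x a b, ‖d.β i x a b‖ ≤ 1 := by
    intro i x a b
    have h1 := hd.rl.cβ i a b 0 (Nat.zero_le _) x
    rw [norm_iteratedFDeriv_zero] at h1
    exact h1.trans (hε4.trans hδ₄')
  have hb₂ : ∀ i x a b, ‖b2 d i x a b‖ ≤ 1 := by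
    intro i x a b'
    have h0 : ∃ c : Cf n N K ε 0, c.s₂ = d.s₂ ∧ c.P₂ = d.P₂ ∧ c.G₂ = d.G₂ := by
      refine ⟨⟨O', Kc, d.j₀, d.s₁, d.s₂, d.P₁, d.P₂, d.G₁, d.G₂, d.β, d.Y, d.D, hd'.rl, d.Γ,
        hd.ig, d.τ, hd.st, hd.it, fun _ _ => 0, ⟨fun _ _ _ _ => contDiff_const, fun _ _ => rfl,
          fun x => by simp [ipC]⟩, (0, 0), by simp, 0, ?_⟩, rfl, rfl, rfl⟩
      intro i j a b m hm
      have : iteratedFDeriv ℝ m (fun _ : V n => (0 : ℂ)) (0 : V n) = 0 := by simp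
      show ‖iteratedFDeriv ℝ m (fun _ : V n => (0 : ℂ)) (0 : V n)‖ ≤ _
      rw [this]
      simp
    obtain ⟨c, h1, h2, h3⟩ := h0
    have h4 := ((H.h2 c).R i a b').2 0 (Nat.zero_le _) x (mem_univ _)
    rw [norm_iteratedFDeriv_zero, h1, h2, h3] at h4
    exact h4.trans hε5
  have hres := resid hη hηO hb hKs (B := fun z => A₁ * (t ^ 3 * Bf z.2)) hKb
    (hs1 d.s₁ hd.rl.d₁.cs) (hs1 d.s₂ hd.rl.d₂.cs) hβ hb₂ hx hy
  have hind : ∀ z : VV n, (tsupport (fderiv ℝ η)).indicator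
      (fun z => (6 * n ^ 2 + n * N) * (b * (A₁ * (t ^ 3 * Bf z.2)))) z ≤
      (tsupport (fderiv ℝ η)).indicator (fun z => b * (C * X ^ (m₃ + 3) * M) *
        (Real.exp (ρ * g z.1) + Real.exp (ρ * g z.2))) z := by
    intro z
    refine indicator_le_indicator ?_
    have h1 := hcmp _ (mul_nonneg hn0 hA₁) hle2 z.2
    calc (6 * n ^ 2 + n * N) * (b * (A₁ * (t ^ 3 * Bf z.2)))
        = b * ((6 * n ^ 2 + n * N) * A₁ * (t ^ 3 * Bf z.2)) := by ring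
      _ ≤ b * (C * X ^ (m₃ + 3) * M * Real.exp (ρ * g z.2)) := mul_le_mul_of_nonneg_left h1 hb0
      _ ≤ b * (C * X ^ (m₃ + 3) * M * (Real.exp (ρ * g z.1) + Real.exp (ρ * g z.2))) := by
          refine mul_le_mul_of_nonneg_left (mul_le_mul_of_nonneg_left ?_ hCX) hb0
          linarith [hexp z.1]
      _ = _ := by ring
  refine ⟨ck η Kk, ck_sm hη hKs, fun z hz => ?_, fun z a' b' => ?_, fun z a' b' => ?_,
    fun z _ a' b' => ?_, ?_⟩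
  · show (η z : ℂ) • Kk z = 0
    rw [image_eq_zero_of_notMem_tsupport hz, Complex.ofReal_zero, zero_smul]
  · exact ((hres z a' b').1).trans (hind z)
  · exact ((hres z a' b').2).trans (hind z)
  · show ‖((η z : ℂ) • Kk z) a' b'‖ ≤ _
    rw [Matrix.smul_apply, norm_smul, Complex.norm_real, Real.norm_eq_abs, mul_assoc]
    by_cases hz : z ∈ tsupport η
    · refine mul_le_mul_of_nonneg_left ?_ (abs_nonneg _)
      have h1 := hKb z hz 0 (by norm_num) a' b'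
      rw [norm_iteratedFDeriv_zero] at h1
      refine (h1.trans (hcmp A₁ hA₁ hle1 z.2)).trans ?_
      exact mul_le_mul_of_nonneg_left (by linarith [hexp z.1]) hCX
    · rw [image_eq_zero_of_notMem_tsupport hz, abs_zero, zero_mul, zero_mul]
  · intro χ hχ hc hs hη1
    have h1 : ∀ p ∈ tsupport χ, p ∈ O' := by
      intro p hp
      have h2 : η (p, p) = 1 := (hη1 p hp).self_of_nhds
      have h3 : (p, p) ∈ tsupport η := subset_tsupport η (by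
        rw [Function.mem_support, h2]
        exact one_ne_zero)
      exact hSO (Or.inl ⟨(p, p), h3, rfl⟩)
    have h2 : ∀ p, (χ p : ℂ) * dgD d (ck η Kk) p =
        (χ p : ℂ) * dgB d.s₁ d.s₂ d.P₁ d.P₂ d.G₁ d.G₂ Kk p := by
      intro p
      by_cases hp : p ∈ tsupport χ
      · have h3 : ck η Kk =ᶠ[𝓝 ((p, p) : VV n)] Kk := by
          filter_upwards [hη1 p hp] with z hz
          show (η z : ℂ) • Kk z = Kk z
          rw [hz, Complex.ofReal_one, one_smul]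
        rw [dgD_loc d h3]
        rfl
      · rw [image_eq_zero_of_notMem_tsupport hp, Complex.ofReal_zero, zero_mul, zero_mul]
    have h3 := hPI' χ hχ hc h1
    have hE : ContinuousOn (fun p => U1 d p * Real.exp (ρ * g p)) O' :=
      (U1_cont hd).continuousOn.mul (continuousOn_const.mul (hg.mono hOs')).rexp
    have h4 := bdry hO' hχ hc h1 (E := fun p => U1 d p * Real.exp (ρ * g p)) hE
      (A := C * X ^ (m₃ + 3) * M)
      (Bf := fun j p => Bj d.s₁ d.s₂ d.P₁ d.P₂ d.G₂ d.Y d.D d.Γ k2 W' j p) (by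
        intro j p hp
        refine (hBjb j p (h1 p hp)).trans ?_
        have hU : 0 ≤ U1 d p := U1_nonneg _ _ _ _ _ _
        have h5 := hcmp A₂ hA₂0 hle3 p
        have h6 : t ≤ t ^ 3 := le_self_pow₀ (by linarith) (by norm_num)
        calc A₂ * (t * (U1 d p * Bf p)) = U1 d p * (A₂ * (t * Bf p)) := by ring
          _ ≤ U1 d p * (A₂ * (t ^ 3 * Bf p)) :=
              mul_le_mul_of_nonneg_left (mul_le_mul_of_nonneg_left
                (mul_le_mul_of_nonneg_right h6 (hBf0 p)) hA₂0) hU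
          _ ≤ U1 d p * (C * X ^ (m₃ + 3) * M * Real.exp (ρ * g p)) :=
              mul_le_mul_of_nonneg_left h5 hU
          _ = _ := by ring)
    simp only [h2]
    rw [h3]
    refine le_trans (le_of_eq ?_) h4
    rw [← norm_neg]
    congr 1
    show _ = ∫ p, ∑ j, ((pd j χ p : ℝ) : ℂ) * Bj d.s₁ d.s₂ d.P₁ d.P₂ d.G₂ d.Y d.D d.Γ k2 W' j p
    have h7 : (∫ p, (χ p : ℂ) * ∑ i, ∑ j, (VD d i j p * k2 i j p).trace) =
        ∫ p, (χ p : ℂ) * ∑ i, ∑ j, (VS d.s₁ d.s₂ d.τ d.P₁ d.P₂ d.G₂ d.β d.Γ d.D i j p *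
          k2 i j p).trace := rfl
    rw [h7]
    ring

end Vale.Agent.P088.S4
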